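import Vale.Agent.P167.H918.ExQ

/-!
# P167, general `q`, Stage II, [ORI2]: the orientation of the uniformizer of a lattice polygon

`ori2`: the wired arc (from the midpoint of the side `0` to the midpoint of the side `k`,
counterclockwise) corresponds to the negative reals.
-/

set_option autoImplicit false

open Set Topology Metric Filter Bornology

namespace Vale.Agent.P167.H634.G2

open Vale.Agent.P153.R2.R1 Vale.Agent.P167.H756 Vale.Agent.P167.H327
open Vale.Agent.P167.E6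
open Vale.Agent.P167.H918 (flat_mid)

variable {m : ℕ} {q : ZMod m → ℤ × ℤ} {S : Finset (ℤ × ℤ)}

theorem PF6_scale (l t : ℝ) : PF6 q l t = (l : ℂ) * PF6 q 1 t := by
  simp only [PF6, pl, PV6]
  rw [Complex.real_smul, Complex.real_smul, Complex.real_smul, Complex.real_smul]
  push_cast
  ring

theorem region_scale {l : ℝ} (hl : 0 < l) (S : Finset (ℤ × ℤ)) :
    region l S = (fun z => (l : ℂ) * z) '' region 1 S := by
  have hl' : (l : ℂ) ≠ 0 := by exact_mod_cast hl.ne'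
  ext z
  constructor
  · rintro ⟨f, hf, h1, h2, h3, h4⟩
    refine ⟨(l : ℂ)⁻¹ * z, ⟨f, hf, ?_⟩, by
      show (l : ℂ) * ((l : ℂ)⁻¹ * z) = z
      rw [← mul_assoc, mul_inv_cancel₀ hl', one_mul]⟩
    have e1 : ((l : ℂ)⁻¹ * z).re = z.re / l := by
      rw [← Complex.ofReal_inv, Complex.re_ofReal_mul]
      field_simp
    have e2 : ((l : ℂ)⁻¹ * z).im = z.im / l := by
      rw [← Complex.ofReal_inv, Complex.im_ofReal_mul]
      field_simp
    rw [e1, e2]
    refine ⟨?_, ?_, ?_, ?_⟩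
    · rw [le_div_iff₀ hl]; linarith
    · rw [div_le_iff₀ hl]; linarith
    · rw [le_div_iff₀ hl]; linarith
    · rw [div_le_iff₀ hl]; linarith
  · rintro ⟨w, ⟨f, hf, h1, h2, h3, h4⟩, rfl⟩
    refine ⟨f, hf, ?_⟩
    rw [Complex.re_ofReal_mul, Complex.im_ofReal_mul]
    refine ⟨?_, ?_, ?_, ?_⟩ <;> nlinarith

theorem D6_scale {l : ℝ} (hl : 0 < l) (S : Finset (ℤ × ℤ)) :
    D6 l S = (fun z => (l : ℂ) * z) '' D6 1 S := by
  have hl' : (l : ℂ) ≠ 0 := by exact_mod_cast hl.ne'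
  rw [D6, D6, region_scale hl]
  exact ((Homeomorph.mulLeft₀ (l : ℂ) hl').image_interior _).symm

/-- The boundary curve is straight in the middle of the sides, with the domain on the left. -/
theorem flat_scale (hq : IsPolygon q) (hE : Encloses q S) {l : ℝ} (hl : 0 < l) (i : ℤ) :
    Flat (PF6 q l) (D6 l S) (i + 1 / 2) := by
  obtain ⟨r, c, u, hr, hc, h1, h2⟩ := flat_mid hq hE i
  refine ⟨r, c, l * u, hr, hc, fun x hx => ?_, fun x hx y hy => ?_⟩
  · rw [PF6_scale l, PF6_scale l (i + 1 / 2), h1 x hx]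
    ring
  · rw [D6_scale hl, PF6_scale l]
    refine ⟨_, h2 x hx y hy, ?_⟩
    show (l : ℂ) * _ = _
    ring

/-- **The boundary values of the uniformizer run through the polygon counterclockwise.** -/
theorem ori2_mono (hq : IsPolygon q) (hE : Encloses q S) {l : ℝ} (hl : 0 < l) {a : ℂ}
    {φ : ℂ → ℂ} (hφ : IsU φ (interior (region l S)) a ((l : ℂ) * PF6 q 1 (1 / 2))) {x x' t t' : ℝ}
    (h1 : 1 / 2 < t) (h2 : t < m + 1 / 2) (hx : φ x = (l : ℂ) * PF6 q 1 t)
    (h1' : 1 / 2 < t') (h2' : t' < m + 1 / 2) (hx' : φ x' = (l : ℂ) * PF6 q 1 t') :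
    x < x' ↔ t < t' := by
  have hm := hq.1
  have hmR : (3 : ℝ) ≤ m := by exact_mod_cast hm
  rw [← PF6_scale] at hφ hx hx'
  have hG := good_D6 hl hq hE
  have hF := jcurve_PF6 hl hq
  have hfr := frontier_D6 hl hq hE
  have hφ' : IsU φ (D6 l S) a (PF6 q l (1 / 2)) := hφ
  have hmono := hpar_mono hφ' hG.nocut hG.isOpen hF hfr (t₀ := ((1 : ℤ) : ℝ) + 1 / 2)
    (by push_cast; constructor <;> linarith) (flat_scale hq hE hl 1)
  have hu := uni_of hφ' hG.nocut
  have e : hpar φ (PF6 q l) t = x := by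
    rw [hpar, ← hx, ph_eq hu (real_HC x), Complex.ofReal_re]
  have e' : hpar φ (PF6 q l) t' = x' := by
    rw [hpar, ← hx', ph_eq hu (real_HC x'), Complex.ofReal_re]
  have := hmono.lt_iff_lt (a := t) (b := t') ⟨h1, by linarith⟩ ⟨h1', by linarith⟩
  rwa [e, e'] at this

/-- **[ORI2]** The wired arc corresponds to the negative reals. -/
theorem ori2 (hq : IsPolygon q) (hE : Encloses q S) {l : ℝ} (hl : 0 < l) {ka : ℕ}
    (hk : 0 < ka) (hkm : ka < m) {φ : ℂ → ℂ} (hφ : IsU φ (interior (region l S))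
      ((l : ℂ) * PF6 q 1 (ka + 1 / 2)) ((l : ℂ) * PF6 q 1 (1 / 2))) {x t : ℝ}
    (h1 : 1 / 2 < t) (h2 : t < m + 1 / 2) (hx : φ x = (l : ℂ) * PF6 q 1 t) :
    x < 0 ↔ t < ka + 1 / 2 := by
  have hk' : (0 : ℝ) < ka := by exact_mod_cast hk
  have hkm' : (ka : ℝ) < m := by exact_mod_cast hkm
  exact ori2_mono hq hE hl hφ h1 h2 hx (t' := ka + 1 / 2) (by linarith) (by linarith)
    (by rw [Complex.ofReal_zero]; exact hφ.zero)

/-- The free arc corresponds to the positive reals. -/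
theorem ori2' (hq : IsPolygon q) (hE : Encloses q S) {l : ℝ} (hl : 0 < l) {ka : ℕ}
    (hk : 0 < ka) (hkm : ka < m) {φ : ℂ → ℂ} (hφ : IsU φ (interior (region l S))
      ((l : ℂ) * PF6 q 1 (ka + 1 / 2)) ((l : ℂ) * PF6 q 1 (1 / 2))) {x t : ℝ}
    (h1 : 1 / 2 < t) (h2 : t < m + 1 / 2) (hx : φ x = (l : ℂ) * PF6 q 1 t) :
    0 < x ↔ (ka : ℝ) + 1 / 2 < t := by
  have hk' : (0 : ℝ) < ka := by exact_mod_cast hk
  have hkm' : (ka : ℝ) < m := by exact_mod_cast hkm
  exact ori2_mono hq hE hl hφ (t := ka + 1 / 2) (by linarith) (by linarith)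
    (by rw [Complex.ofReal_zero]; exact hφ.zero) h1 h2 hx

/-- Every boundary point except the target is the value at a real point. -/
theorem exists_real (hq : IsPolygon q) (hE : Encloses q S) {l : ℝ} (hl : 0 < l) {a : ℂ}
    {φ : ℂ → ℂ} (hφ : IsU φ (interior (region l S)) a ((l : ℂ) * PF6 q 1 (1 / 2))) {t : ℝ}
    (h1 : 1 / 2 < t) (h2 : t < m + 1 / 2) : ∃ x : ℝ, φ x = (l : ℂ) * PF6 q 1 t := by
  rw [← PF6_scale] at hφ ⊢
  have hG := good_D6 hl hq hE
  have hF := jcurve_PF6 hl hq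
  have hfr := frontier_D6 hl hq hE
  have hφ' : IsU φ (D6 l S) a (PF6 q l (1 / 2)) := hφ
  exact ⟨_, (hpar_spec hφ' hG.nocut hG.isOpen hF hfr (t := t) ⟨h1, by linarith⟩).1⟩

end Vale.Agent.P167.H634.G2
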